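import Mathlib

set_option autoImplicit false

open MeasureTheory Set Filter Topology

namespace Crest.Agent.R280

/-- The mean-one exponential law on the line. -/
noncomputable def nu : Measure ℝ :=
  (volume.restrict (Ioi (0:ℝ))).withDensity (fun x => ENNReal.ofReal (Real.exp (-x)))

lemma measurable_dens : Measurable (fun x : ℝ => ENNReal.ofReal (Real.exp (-x))) := by
  fun_prop

lemma integral_nu (f : ℝ → ℝ) : ∫ x, f x ∂nu = ∫ x in Ioi (0:ℝ), Real.exp (-x) * f x := by
  unfold nu
  rw [integral_withDensity_eq_integral_toReal_smul measurable_dens (by simp)]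
  simp [ENNReal.toReal_ofReal (Real.exp_pos _).le]

lemma integrable_nu_iff (f : ℝ → ℝ) :
    Integrable f nu ↔ IntegrableOn (fun x => Real.exp (-x) * f x) (Ioi (0:ℝ)) := by
  unfold nu IntegrableOn
  rw [integrable_withDensity_iff_integrable_smul' measurable_dens (by simp)]
  simp [ENNReal.toReal_ofReal (Real.exp_pos _).le]

instance : IsProbabilityMeasure nu := by
  constructor
  have h : nu univ = ∫⁻ x in Ioi (0:ℝ), ENNReal.ofReal (Real.exp (-x)) := by
    unfold nu; rw [withDensity_apply _ MeasurableSet.univ]; simp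
  rw [h, ← ofReal_integral_eq_lintegral_ofReal (integrableOn_exp_neg_Ioi 0)
    (Eventually.of_forall fun x => (Real.exp_pos _).le), integral_exp_neg_Ioi_zero]
  simp

lemma hasDerivAt_id_exp (x : ℝ) :
    HasDerivAt (fun x : ℝ => -((x + 1) * Real.exp (-x))) (Real.exp (-x) * x) x := by
  have h1 : HasDerivAt (fun x : ℝ => Real.exp (-x)) (-Real.exp (-x)) x := by
    simpa using ((hasDerivAt_id x).neg).exp
  have h2 := ((((hasDerivAt_id x).add_const 1).mul h1).neg)
  refine h2.congr_deriv ?_
  simp only [id]
  ring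

lemma integrableOn_exp_mul_id : IntegrableOn (fun x : ℝ => Real.exp (-x) * x) (Ioi (0:ℝ)) := by
  have := Real.GammaIntegral_convergent (s := 2) (by norm_num)
  refine this.congr_fun (fun x hx => ?_) measurableSet_Ioi
  norm_num

lemma tendsto_id_exp : Tendsto (fun x : ℝ => -((x + 1) * Real.exp (-x))) atTop (𝓝 0) := by
  have h1 := Real.tendsto_pow_mul_exp_neg_atTop_nhds_zero 1
  have h0 := Real.tendsto_pow_mul_exp_neg_atTop_nhds_zero 0
  have := (h1.add h0).neg
  simp only [pow_one, pow_zero, add_zero, neg_zero] at this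
  refine this.congr (fun x => ?_)
  ring

lemma integrable_id_nu : Integrable (fun x : ℝ => x) nu := by
  rw [integrable_nu_iff]; exact integrableOn_exp_mul_id

lemma integral_id_nu : ∫ x, x ∂nu = 1 := by
  rw [integral_nu]
  rw [integral_Ioi_of_hasDerivAt_of_tendsto (f := fun x : ℝ => -((x + 1) * Real.exp (-x)))
    (m := 0) ?_ (fun x _ => hasDerivAt_id_exp x) integrableOn_exp_mul_id tendsto_id_exp]
  · simp
  · exact (hasDerivAt_id_exp 0).continuousAt.continuousWithinAt

/-- The product of exponential laws as a density on the orthant. -/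
lemma pi_nu (N : ℕ) :
    Measure.pi (fun _ : Fin N => nu) =
      (Measure.pi (fun _ : Fin N => volume.restrict (Ioi (0:ℝ)))).withDensity
        (fun x => ENNReal.ofReal (Real.exp (-∑ i, x i))) := by
  apply Measure.pi_eq
  intro s hs
  rw [withDensity_apply _ (MeasurableSet.univ_pi hs), Measure.restrict_pi_pi]
  have hint : ∀ i : Fin N, Integrable (fun x : ℝ => Real.exp (-x))
      ((volume.restrict (Ioi (0:ℝ))).restrict (s i)) := fun i =>
    Integrable.mono_measure (integrableOn_exp_neg_Ioi 0) Measure.restrict_le_self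
  have hprod : ∀ x : Fin N → ℝ, Real.exp (-∑ i, x i) = ∏ i, Real.exp (-x i) := by
    intro x; rw [← Finset.sum_neg_distrib, Real.exp_sum]
  have h1 : Integrable (fun x : Fin N → ℝ => ∏ i, Real.exp (-x i))
      (Measure.pi (fun i : Fin N => (volume.restrict (Ioi (0:ℝ))).restrict (s i))) :=
    Integrable.fintype_prod_dep (f := fun _ x => Real.exp (-x)) hint
  simp_rw [hprod]
  rw [← ofReal_integral_eq_lintegral_ofReal h1
    (Eventually.of_forall fun x => Finset.prod_nonneg fun i _ => (Real.exp_pos _).le)]
  rw [integral_fintype_prod_eq_prod (f := fun _ x => Real.exp (-x))]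
  rw [ENNReal.ofReal_prod_of_nonneg (fun i _ => integral_nonneg fun x => (Real.exp_pos _).le)]
  refine Finset.prod_congr rfl fun i _ => ?_
  unfold nu
  rw [withDensity_apply _ (hs i)]
  rw [ofReal_integral_eq_lintegral_ofReal (hint i)
    (Eventually.of_forall fun x => (Real.exp_pos _).le)]

/-- The integral in the statement is an expectation. -/
lemma integral_orthant (N : ℕ) (f : (Fin N → ℝ) → ℝ) :
    ∫ x in Set.pi Set.univ (fun _ : Fin N => Set.Ioi (0 : ℝ)), f x * Real.exp (-∑ i, x i)
      = ∫ x, f x ∂(Measure.pi (fun _ : Fin N => nu)) := by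
  rw [pi_nu, volume_pi, Measure.restrict_pi_pi,
    integral_withDensity_eq_integral_toReal_smul (by fun_prop) (by simp)]
  refine integral_congr_ae (Eventually.of_forall fun x => ?_)
  simp [ENNReal.toReal_ofReal (Real.exp_pos _).le, mul_comm]

/-- One-step Fubini. -/
lemma integral_succ (N : ℕ) (f : (Fin (N+1) → ℝ) → ℝ)
    (hf : Integrable f (Measure.pi (fun _ : Fin (N+1) => nu))) :
    ∫ x, f x ∂(Measure.pi (fun _ : Fin (N+1) => nu)) =
      ∫ u, ∫ x, f (Fin.cons u x) ∂(Measure.pi (fun _ : Fin N => nu)) ∂nu := by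
  have mp := (measurePreserving_piFinSuccAbove (fun _ : Fin (N+1) => nu) 0).symm
  rw [← mp.integral_comp']
  rw [integral_prod]
  · refine integral_congr_ae (Eventually.of_forall fun u => ?_)
    refine integral_congr_ae (Eventually.of_forall fun x => ?_)
    simp only [MeasurableEquiv.piFinSuccAbove_symm_apply, Fin.insertNthEquiv, Equiv.coe_fn_mk,
      Fin.insertNth_zero]
    rfl
  · have := (mp.integrable_comp_emb (MeasurableEquiv.measurableEmbedding _)).2 hf
    exact this

end Crest.Agent.R280
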