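import Mathlib
import Crest.Prelude.Def_TruncExpWeight

set_option autoImplicit false

open MeasureTheory Set Filter Topology Crest.AlgGeometry

namespace Crest.Agent.R280

/-! ### Explicit one-variable integrals -/

lemma tendsto_aff_mul_exp (α β γ x₀ : ℝ) (hγ : 0 < γ) :
    Tendsto (fun x : ℝ => (α + β * (x - x₀)) * Real.exp (-(γ * (x - x₀)))) atTop (𝓝 0) := by
  have hu : Tendsto (fun x : ℝ => γ * (x - x₀)) atTop atTop :=
    (tendsto_id.atTop_add tendsto_const_nhds).const_mul_atTop hγ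
  have h0 : Tendsto (fun u : ℝ => Real.exp (-u)) atTop (𝓝 0) :=
    Real.tendsto_exp_neg_atTop_nhds_zero
  have h1 : Tendsto (fun u : ℝ => u * Real.exp (-u)) atTop (𝓝 0) := by
    have := Real.tendsto_pow_mul_exp_neg_atTop_nhds_zero 1
    simpa using this
  have h2 : Tendsto (fun u : ℝ => α * Real.exp (-u) + β / γ * (u * Real.exp (-u))) atTop (𝓝 0) := by
    have := (h0.const_mul α).add (h1.const_mul (β / γ))
    simpa using this
  have h3 := h2.comp hu
  refine h3.congr (fun x => ?_)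
  simp only [Function.comp]
  have hγ' : γ ≠ 0 := hγ.ne'
  field_simp

lemma hasDerivAt_aff_mul_exp (α β γ x₀ : ℝ) (hγ : 0 < γ) (x : ℝ) :
    HasDerivAt (fun x : ℝ => -((α / γ + β / γ ^ 2) + β / γ * (x - x₀)) *
        Real.exp (-(γ * (x - x₀))))
      ((α + β * (x - x₀)) * Real.exp (-(γ * (x - x₀)))) x := by
  have h1 : HasDerivAt (fun x : ℝ => x - x₀) 1 x := (hasDerivAt_id x).sub_const x₀
  have h2 : HasDerivAt (fun x : ℝ => -((α / γ + β / γ ^ 2) + β / γ * (x - x₀)))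
      (-(β / γ * 1)) x := ((h1.const_mul (β / γ)).const_add _).neg
  have h3 : HasDerivAt (fun x : ℝ => Real.exp (-(γ * (x - x₀))))
      (Real.exp (-(γ * (x - x₀))) * (-(γ * 1))) x := ((h1.const_mul γ).neg).exp
  refine (h2.mul h3).congr_deriv ?_
  have hγ' : γ ≠ 0 := hγ.ne'
  field_simp
  ring

lemma aff_mul_exp_integrableOn (α β γ x₀ : ℝ) (hα : 0 ≤ α) (hβ : 0 ≤ β) (hγ : 0 < γ) :
    IntegrableOn (fun x : ℝ => (α + β * (x - x₀)) * Real.exp (-(γ * (x - x₀)))) (Ioi x₀) := by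
  refine integrableOn_Ioi_deriv_of_nonneg' (l := 0)
    (fun x _ => hasDerivAt_aff_mul_exp α β γ x₀ hγ x) (fun x hx => ?_) ?_
  · have : 0 ≤ x - x₀ := sub_nonneg.2 (le_of_lt hx)
    positivity
  · have := (tendsto_aff_mul_exp (α / γ + β / γ ^ 2) (β / γ) γ x₀ hγ).neg
    simpa only [neg_mul, neg_zero] using this

lemma integral_aff_mul_exp (α β γ x₀ : ℝ) (hα : 0 ≤ α) (hβ : 0 ≤ β) (hγ : 0 < γ) :
    ∫ x in Ioi x₀, (α + β * (x - x₀)) * Real.exp (-(γ * (x - x₀))) = α / γ + β / γ ^ 2 := by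
  have h := integral_Ioi_of_hasDerivAt_of_nonneg' (l := 0)
    (fun x _ => hasDerivAt_aff_mul_exp α β γ x₀ hγ x) (a := x₀) (fun x hx => by
      have : 0 ≤ x - x₀ := sub_nonneg.2 (le_of_lt hx)
      positivity) (by
      have := (tendsto_aff_mul_exp (α / γ + β / γ ^ 2) (β / γ) γ x₀ hγ).neg
      simpa only [neg_mul, neg_zero] using this)
  rw [h]
  simp

/-- The weighted integral in the regime `4/3 ≤ b`. -/
theorem calc_formula_ge (b : ℝ) (hb : 4 / 3 ≤ b) :
    ∫ x in Ioi (0 : ℝ), truncExpWeight (4 / 3 - b + b * x) * Real.exp (-x) =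
      1 - Real.exp (4 / (3 * b) - 1) * (b / (1 + b)) ^ 2 := by
  have hb0 : 0 < b := by linarith
  set x₀ : ℝ := 1 - 4 / (3 * b) with hx₀
  have hx₀0 : 0 ≤ x₀ := by
    rw [hx₀, sub_nonneg, div_le_one (by positivity)]
    linarith
  have hbx : b * x₀ = b - 4 / 3 := by
    rw [hx₀]; field_simp
  -- split the domain
  have hsplit : Ioi (0 : ℝ) = Ioc 0 x₀ ∪ Ioi x₀ := by
    rw [Ioc_union_Ioi_eq_Ioi hx₀0]
  have hA : EqOn (fun x : ℝ => truncExpWeight (4 / 3 - b + b * x) * Real.exp (-x))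
      (fun x => Real.exp (-x)) (Ioc 0 x₀) := by
    intro x hx
    have : 4 / 3 - b + b * x ≤ 0 := by
      have := mul_le_mul_of_nonneg_left hx.2 hb0.le
      linarith
    simp [truncExpWeight, this]
  have hB : EqOn (fun x : ℝ => truncExpWeight (4 / 3 - b + b * x) * Real.exp (-x))
      (fun x => Real.exp (-x₀) * ((1 + b * (x - x₀)) * Real.exp (-((b + 1) * (x - x₀)))))
      (Ioi x₀) := by
    intro x hx
    have h1 : 4 / 3 - b + b * x = b * (x - x₀) := by rw [mul_sub, hbx]; ring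
    have h2 : ¬ (b * (x - x₀) ≤ 0) := not_le.2 (mul_pos hb0 (sub_pos.2 hx))
    simp only [truncExpWeight, h1, h2, if_false]
    rw [mul_assoc, ← Real.exp_add, mul_left_comm, ← Real.exp_add]
    congr 2
    ring
  have hIA : IntegrableOn (fun x : ℝ => truncExpWeight (4 / 3 - b + b * x) * Real.exp (-x))
      (Ioc 0 x₀) := by
    rw [integrableOn_congr_fun hA measurableSet_Ioc]
    exact (Real.continuous_exp.comp continuous_neg).integrableOn_Ioc
  have hIB : IntegrableOn (fun x : ℝ => truncExpWeight (4 / 3 - b + b * x) * Real.exp (-x))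
      (Ioi x₀) := by
    rw [integrableOn_congr_fun hB measurableSet_Ioi]
    exact (aff_mul_exp_integrableOn 1 b (b + 1) x₀ zero_le_one hb0.le (by linarith)).const_mul _
  rw [hsplit, setIntegral_union (by
      rw [Set.disjoint_left]; intro x hx hx'; exact absurd hx.2 (not_le.2 hx'))
      measurableSet_Ioi hIA hIB,
    setIntegral_congr_fun measurableSet_Ioc hA, setIntegral_congr_fun measurableSet_Ioi hB,
    integral_const_mul, integral_aff_mul_exp 1 b (b + 1) x₀ zero_le_one hb0.le (by linarith)]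
  have hexp : ∫ x in Ioc 0 x₀, Real.exp (-x) = 1 - Real.exp (-x₀) := by
    rw [← intervalIntegral.integral_of_le hx₀0]
    simp
  rw [hexp]
  have hx1 : Real.exp (4 / (3 * b) - 1) = Real.exp (-x₀) := by rw [hx₀]; ring_nf
  rw [hx1]
  field_simp
  ring

/-- The weighted integral in the regime `0 < b ≤ 4/3`. -/
theorem calc_formula_le (b : ℝ) (hb0 : 0 < b) (hb : b ≤ 4 / 3) :
    ∫ x in Ioi (0 : ℝ), truncExpWeight (4 / 3 - b + b * x) * Real.exp (-x) =
      Real.exp (-(4 / 3 - b)) * ((4 / 3 - b) / (1 + b) + (1 + 2 * b) / (1 + b) ^ 2) := by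
  set c : ℝ := 4 / 3 - b with hc
  have hc0 : 0 ≤ c := by rw [hc]; linarith
  have hB : EqOn (fun x : ℝ => truncExpWeight (c + b * x) * Real.exp (-x))
      (fun x => Real.exp (-c) * (((1 + c) + b * (x - 0)) * Real.exp (-((b + 1) * (x - 0)))))
      (Ioi 0) := by
    intro x hx
    have h2 : ¬ (c + b * x ≤ 0) := not_le.2 (by have := mul_pos hb0 hx; linarith)
    simp only [truncExpWeight, h2, if_false]
    rw [mul_assoc, ← Real.exp_add, mul_left_comm, ← Real.exp_add]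
    ring_nf
  rw [setIntegral_congr_fun measurableSet_Ioi hB, integral_const_mul,
    integral_aff_mul_exp (1 + c) b (b + 1) 0 (by linarith) hb0.le (by linarith)]
  congr 1
  field_simp
  ring

lemma cubic_le_exp (x : ℝ) (hx : 0 ≤ x) : 1 + x + x ^ 2 / 2 + x ^ 3 / 6 ≤ Real.exp x := by
  have h := Real.sum_le_exp_of_nonneg hx 4
  simp [Finset.sum_range_succ, Nat.factorial] at h
  linarith

lemma exp_neg_third_le : 4 / 9 * Real.exp (-1 / 3) ≤ 0.3186 := by
  have h1 : (1 : ℝ) + 1 / 3 + (1 / 3) ^ 2 / 2 + (1 / 3) ^ 3 / 6 ≤ Real.exp (1 / 3) :=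
    cubic_le_exp (1 / 3) (by norm_num)
  have h2 : Real.exp (-1 / 3) * Real.exp (1 / 3) = 1 := by
    rw [← Real.exp_add]; norm_num
  have h3 : 0 < Real.exp (-1 / 3) := Real.exp_pos _
  nlinarith

lemma calc_ineq_ge (b : ℝ) (hb : 0 < b) :
    4 / 9 * Real.exp (-1 / 3) ≤ Real.exp (4 / (3 * b) - 1) * (b / (1 + b)) ^ 2 := by
  have h1 : 2 * (1 + b) / (3 * b) ≤ Real.exp (2 / (3 * b) - 1 / 3) := by
    have := Real.add_one_le_exp (2 / (3 * b) - 1 / 3)
    refine le_trans (le_of_eq ?_) this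
    field_simp
    ring
  have h2 : (2 * (1 + b) / (3 * b)) ^ 2 ≤ Real.exp (4 / (3 * b) - 2 / 3) := by
    have h3 : Real.exp (4 / (3 * b) - 2 / 3) = (Real.exp (2 / (3 * b) - 1 / 3)) ^ 2 := by
      rw [← Real.exp_nat_mul]; congr 1; push_cast; ring
    rw [h3]
    exact pow_le_pow_left₀ (by positivity) h1 2
  have h4 : Real.exp (4 / (3 * b) - 1) = Real.exp (-1 / 3) * Real.exp (4 / (3 * b) - 2 / 3) := by
    rw [← Real.exp_add]; congr 1; ring
  rw [h4]
  have h5 : (0 : ℝ) ≤ (b / (1 + b)) ^ 2 := by positivity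
  calc 4 / 9 * Real.exp (-1 / 3)
      = Real.exp (-1 / 3) * (2 * (1 + b) / (3 * b)) ^ 2 * (b / (1 + b)) ^ 2 := by
        field_simp; ring
    _ ≤ Real.exp (-1 / 3) * Real.exp (4 / (3 * b) - 2 / 3) * (b / (1 + b)) ^ 2 := by
        gcongr

lemma calc_ineq_le (c : ℝ) (hc0 : 0 ≤ c) (hc : c ≤ 4 / 3) :
    Real.exp (-c) * ((11 / 3 + c / 3 - c ^ 2) / (7 / 3 - c) ^ 2) ≤
      1 - 4 / 9 * Real.exp (-1 / 3) := by
  have h1 := exp_neg_third_le
  have h2 := cubic_le_exp c hc0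
  have h3 : Real.exp (-c) * Real.exp c = 1 := by rw [← Real.exp_add]; simp
  have h4 : 0 < Real.exp (-c) := Real.exp_pos _
  have h5 : 0 < (7 / 3 - c) ^ 2 := by
    have : 0 < 7 / 3 - c := by linarith
    positivity
  have key : 11 / 3 + c / 3 - c ^ 2 ≤
      0.6814 * (7 / 3 - c) ^ 2 * (1 + c + c ^ 2 / 2 + c ^ 3 / 6) := by
    nlinarith [mul_nonneg hc0 (sub_nonneg.2 hc), mul_nonneg hc0 hc0,
      mul_nonneg (mul_nonneg hc0 hc0) (sub_nonneg.2 hc),
      mul_nonneg (mul_nonneg hc0 hc0) (mul_nonneg hc0 (sub_nonneg.2 hc)),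
      mul_nonneg (mul_nonneg hc0 hc0) hc0,
      mul_nonneg (mul_nonneg hc0 hc0) (mul_nonneg hc0 hc0),
      mul_nonneg (mul_nonneg (mul_nonneg hc0 hc0) hc0) (sq_nonneg (4/3 - c)),
      mul_nonneg (mul_nonneg hc0 hc0) (sq_nonneg (4/3 - c)),
      mul_nonneg hc0 (sq_nonneg (4/3 - c)), sq_nonneg (c - 1), sq_nonneg (c * (c - 1))]
  have h6 : (11 / 3 + c / 3 - c ^ 2) / (7 / 3 - c) ^ 2 ≤ 0.6814 * Real.exp c := by
    rw [div_le_iff₀ h5]
    calc 11 / 3 + c / 3 - c ^ 2 ≤ 0.6814 * (7 / 3 - c) ^ 2 * (1 + c + c ^ 2 / 2 + c ^ 3 / 6) := key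
      _ ≤ 0.6814 * (7 / 3 - c) ^ 2 * Real.exp c := by gcongr
      _ = 0.6814 * Real.exp c * (7 / 3 - c) ^ 2 := by ring
  calc Real.exp (-c) * ((11 / 3 + c / 3 - c ^ 2) / (7 / 3 - c) ^ 2)
      ≤ Real.exp (-c) * (0.6814 * Real.exp c) := by gcongr
    _ = 0.6814 := by rw [mul_left_comm, h3, mul_one]
    _ ≤ 1 - 4 / 9 * Real.exp (-1 / 3) := by linarith

/-- Main calculus bound. -/
theorem calc_main (b : ℝ) (hb : 0 < b) :
    ∫ x in Ioi (0 : ℝ), truncExpWeight (4 / 3 - b + b * x) * Real.exp (-x) ≤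
      1 - 4 / 9 * Real.exp (-1 / 3) := by
  rcases le_total (4 / 3) b with h | h
  · rw [calc_formula_ge b h]
    have := calc_ineq_ge b hb
    linarith
  · rw [calc_formula_le b hb h]
    have := calc_ineq_le (4 / 3 - b) (by linarith) (by linarith)
    refine le_trans (le_of_eq ?_) this
    congr 1
    have h1 : 7 / 3 - (4 / 3 - b) = 1 + b := by ring
    rw [h1]
    field_simp
    ring

theorem calc_zero : truncExpWeight (4 / 3) ≤ 1 - 4 / 9 * Real.exp (-1 / 3) := by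
  have h : ¬ ((4 : ℝ) / 3 ≤ 0) := by norm_num
  simp only [truncExpWeight, h, if_false]
  have := calc_ineq_le (4 / 3) (by norm_num) le_rfl
  refine le_trans (le_of_eq ?_) this
  rw [mul_comm]
  congr 1
  norm_num

/-- The constant in the statement. -/
theorem const_eq : Real.exp (4 / 3) / (4 / 3) * (1 - 4 / 9 * Real.exp (-1 / 3)) =
    3 / 4 * Real.exp (4 / 3) - Real.exp 1 / 3 := by
  have h : Real.exp 1 = Real.exp (4 / 3) * Real.exp (-1 / 3) := by
    rw [← Real.exp_add]; norm_num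
  rw [h]
  ring

end Crest.Agent.R280
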