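import Crest.Agent.R280.Basic

set_option autoImplicit false

open MeasureTheory Set Filter Topology

namespace Crest.Agent.R280

lemma setIntegral_Ioi_shift (F : ℝ → ℝ) (c : ℝ) :
    ∫ x in Ioi c, F x = ∫ x in Ioi (0:ℝ), F (c + x) := by
  have mp := measurePreserving_add_left (volume : Measure ℝ) c
  have h := mp.setIntegral_preimage_emb (measurableEmbedding_addLeft c) F (Ioi c)
  rw [← h]
  congr 1
  simp

lemma integrableOn_Ioi_shift {F : ℝ → ℝ} {c : ℝ} (h : IntegrableOn F (Ioi c)) :
    IntegrableOn (fun x => F (c + x)) (Ioi (0:ℝ)) := by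
  have mp := measurePreserving_add_left (volume : Measure ℝ) c
  have := (mp.integrableOn_comp_preimage (measurableEmbedding_addLeft c) (f := F)
    (s := Ioi c)).2 h
  simpa [Function.comp_def] using this

/-- splitting the exponential expectation at `c` -/
lemma integral_nu_split (φ : ℝ → ℝ) (hφ : Integrable φ nu) {c : ℝ} (hc : 0 ≤ c) :
    ∫ u, φ u ∂nu = (∫ u in (0:ℝ)..c, Real.exp (-u) * φ u)
      + Real.exp (-c) * ∫ u, φ (c + u) ∂nu := by
  rw [integral_nu, integral_nu]
  have h1 := (integrable_nu_iff φ).1 hφ
  rw [← intervalIntegral.integral_interval_add_Ioi h1 (h1.mono_set (Ioi_subset_Ioi hc)),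
    setIntegral_Ioi_shift, ← integral_const_mul]
  congr 1
  refine integral_congr_ae (Eventually.of_forall fun x => ?_)
  simp only
  rw [neg_add, Real.exp_add]; ring

structure Good (f : ℝ → ℝ) : Prop where
  lip : ∀ s t, |f s - f t| ≤ |s - t|
  nonneg : ∀ t, 0 ≤ f t
  lc : ∀ x y h, y ≤ x → 0 ≤ h → f (x + h) * f y ≤ f x * f (y + h)

lemma Good.continuous {f : ℝ → ℝ} (hf : Good f) : Continuous f := by
  have : LipschitzWith 1 f := by
    apply LipschitzWith.of_dist_le_mul
    intro x y
    simpa [Real.dist_eq] using hf.lip x y
  exact this.continuous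

lemma Good.integrable {f : ℝ → ℝ} (hf : Good f) (t b : ℝ) :
    Integrable (fun u => f (t + b * u)) nu := by
  have h1 : Integrable (fun u : ℝ => f t + |b| * |u|) nu :=
    (integrable_const _).add (integrable_id_nu.abs.const_mul _)
  refine h1.mono' (hf.continuous.comp (by fun_prop)).aestronglyMeasurable
    (Eventually.of_forall fun u => ?_)
  rw [Real.norm_eq_abs, abs_of_nonneg (hf.nonneg _)]
  have := hf.lip (t + b * u) t
  have h2 := le_of_abs_le this
  rw [add_sub_cancel_left, abs_mul] at h2
  linarith

/-- averaging against an exponential variable -/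
noncomputable def T (b : ℝ) (f : ℝ → ℝ) (t : ℝ) : ℝ := ∫ u, f (t + b * u) ∂nu

lemma T_nonneg {f : ℝ → ℝ} (hf : Good f) (b t : ℝ) : 0 ≤ T b f t :=
  integral_nonneg fun _ => hf.nonneg _

lemma T_lip {f : ℝ → ℝ} (hf : Good f) (b s t : ℝ) : |T b f s - T b f t| ≤ |s - t| := by
  unfold T
  rw [← integral_sub (hf.integrable s b) (hf.integrable t b)]
  refine (abs_integral_le_integral_abs).trans ?_
  have : ∫ u, |f (s + b * u) - f (t + b * u)| ∂nu ≤ ∫ _u, |s - t| ∂nu := by
    refine integral_mono_of_nonneg (Eventually.of_forall fun _ => abs_nonneg _)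
      (integrable_const _) (Eventually.of_forall fun u => ?_)
    have := hf.lip (s + b * u) (t + b * u)
    simpa using this
  simpa using this

/-- positive coefficient -/
lemma T_lc_pos {f : ℝ → ℝ} (hf : Good f) {b : ℝ} (hb : 0 < b) (x y h : ℝ) (hyx : y ≤ x)
    (hh : 0 ≤ h) : T b f (x + h) * T b f y ≤ T b f x * T b f (y + h) := by
  set c := h / b with hc
  have hc0 : 0 ≤ c := div_nonneg hh hb.le
  have hbc : b * c = h := by rw [hc]; field_simp
  have split : ∀ z, T b f z = (∫ u in (0:ℝ)..c, Real.exp (-u) * f (z + b * u))
      + Real.exp (-c) * T b f (z + h) := by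
    intro z
    unfold T
    rw [integral_nu_split _ (hf.integrable z b) hc0]
    congr 2
    refine integral_congr_ae (Eventually.of_forall fun u => ?_)
    simp only
    congr 1
    rw [← hbc]; ring
  have ii : ∀ z, IntervalIntegrable (fun u => Real.exp (-u) * f (z + b * u)) volume 0 c := by
    intro z
    apply Continuous.intervalIntegrable
    exact (by fun_prop : Continuous fun u : ℝ => Real.exp (-u)).mul
      (hf.continuous.comp (by fun_prop))
  rw [split y, split x]
  have key : T b f (x + h) * (∫ u in (0:ℝ)..c, Real.exp (-u) * f (y + b * u)) ≤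
      T b f (y + h) * (∫ u in (0:ℝ)..c, Real.exp (-u) * f (x + b * u)) := by
    rw [← intervalIntegral.integral_const_mul, ← intervalIntegral.integral_const_mul]
    apply intervalIntegral.integral_mono_on hc0 ((ii y).const_mul _) ((ii x).const_mul _)
    intro u hu
    have hu0 : 0 ≤ b * u := mul_nonneg hb.le hu.1
    have huh : b * u ≤ h := by rw [← hbc]; exact mul_le_mul_of_nonneg_left hu.2 hb.le
    have e : ∀ A B : ℝ, A * (Real.exp (-u) * B) = Real.exp (-u) * (A * B) := by
      intro A B; ring
    rw [e, e]
    apply mul_le_mul_of_nonneg_left _ (Real.exp_pos _).le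
    unfold T
    rw [← integral_mul_const, ← integral_mul_const]
    apply integral_mono_ae ((hf.integrable _ b).mul_const _) ((hf.integrable _ b).mul_const _)
    have hpos : ∀ᵐ v ∂nu, 0 ≤ v := by
      unfold nu
      refine (withDensity_absolutelyContinuous _ _).ae_le ?_
      filter_upwards [ae_restrict_mem measurableSet_Ioi] with v hv using le_of_lt hv
    filter_upwards [hpos] with v hv
    have hv0 : 0 ≤ b * v := mul_nonneg hb.le hv
    have := hf.lc (y + h + b * v) (y + b * u) (x - y) (by linarith) (by linarith)
    have e1 : y + h + b * v + (x - y) = x + h + b * v := by ring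
    have e2 : y + b * u + (x - y) = x + b * u := by ring
    rw [e1, e2] at this
    exact this
  nlinarith [key]

lemma Good.reflect {f : ℝ → ℝ} (hf : Good f) : Good (fun t => f (-t)) where
  lip s t := by
    have := hf.lip (-s) (-t)
    rwa [show -s - -t = -(s - t) by ring, abs_neg] at this
  nonneg t := hf.nonneg _
  lc x y h hyx hh := by
    have := hf.lc (-y - h) (-x - h) h (by linarith) hh
    have e1 : -y - h + h = -y := by ring
    have e2 : -x - h + h = -x := by ring
    have e3 : -y - h = -(y + h) := by ring
    have e4 : -x - h = -(x + h) := by ring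
    rw [e1, e2, e3, e4] at this
    linarith

lemma T_lc {f : ℝ → ℝ} (hf : Good f) (b : ℝ) (x y h : ℝ) (hyx : y ≤ x)
    (hh : 0 ≤ h) : T b f (x + h) * T b f y ≤ T b f x * T b f (y + h) := by
  rcases lt_trichotomy b 0 with hb | hb | hb
  · have key : ∀ z, T b f z = T (-b) (fun t => f (-t)) (-z) := by
      intro z
      unfold T
      refine integral_congr_ae (Eventually.of_forall fun u => ?_)
      simp only
      congr 1; ring
    have := T_lc_pos hf.reflect (neg_pos.2 hb) (-y - h) (-x - h) h (by linarith) hh
    have e1 : -y - h + h = -y := by ring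
    have e2 : -x - h + h = -x := by ring
    have e3 : -y - h = -(y + h) := by ring
    have e4 : -x - h = -(x + h) := by ring
    rw [e1, e2, e3, e4, ← key, ← key, ← key, ← key] at this
    linarith
  · subst hb
    simp only [T, zero_mul, add_zero, integral_const, probReal_univ, smul_eq_mul, one_mul]
    exact hf.lc x y h hyx hh
  · exact T_lc_pos hf hb x y h hyx hh

lemma Good.T {f : ℝ → ℝ} (hf : Good f) (b : ℝ) : Good (T b f) where
  lip := T_lip hf b
  nonneg := T_nonneg hf b
  lc := T_lc hf b

lemma good_posPart : Good (fun t : ℝ => max t 0) where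
  lip s t := by
    rcases le_total s t with h | h
    · have h1 : max s 0 ≤ max t 0 := max_le_max_right 0 h
      have h2 : max t 0 ≤ max s 0 + (t - s) := by
        apply max_le
        · have := le_max_left s 0; linarith
        · have := le_max_right s 0; linarith
      rw [abs_sub_comm, abs_sub_comm s t, abs_of_nonneg (by linarith), abs_of_nonneg (by linarith)]
      linarith
    · have h1 : max t 0 ≤ max s 0 := max_le_max_right 0 h
      have h2 : max s 0 ≤ max t 0 + (s - t) := by
        apply max_le
        · have := le_max_left t 0; linarith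
        · have := le_max_right t 0; linarith
      rw [abs_of_nonneg (by linarith), abs_of_nonneg (by linarith)]
      linarith
  nonneg t := le_max_right _ _
  lc x y h hyx hh := by
    rcases le_total y 0 with hy | hy
    · simp only [max_eq_right hy, mul_zero]
      exact mul_nonneg (le_max_right _ _) (le_max_right _ _)
    · rw [max_eq_left (by linarith : (0:ℝ) ≤ x + h), max_eq_left hy,
        max_eq_left (by linarith : (0:ℝ) ≤ x), max_eq_left (by linarith : (0:ℝ) ≤ y + h)]
      nlinarith

end Crest.Agent.R280
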