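import Mathlib

set_option autoImplicit false
open MeasureTheory Set
open scoped ENNReal

namespace Crest.Agent.R280

/-- mean-one exponential law -/
noncomputable def E1 : Measure ℝ :=
  (volume.restrict (Ioi (0:ℝ))).withDensity (fun x => ENNReal.ofReal (Real.exp (-x)))

theorem integrable_exp_neg : Integrable (fun x : ℝ => Real.exp (-x)) (volume.restrict (Ioi (0:ℝ))) := by
  have := Real.GammaIntegral_convergent (s := 1) one_pos
  simpa [IntegrableOn] using this

theorem integral_exp_neg : ∫ x in Ioi (0:ℝ), Real.exp (-x) = 1 := by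
  simpa using integral_exp_neg_Ioi (0:ℝ)

theorem E1_univ : E1 univ = 1 := by
  rw [E1, withDensity_apply _ MeasurableSet.univ, Measure.restrict_univ,
    ← ofReal_integral_eq_lintegral_ofReal integrable_exp_neg
      (Filter.Eventually.of_forall fun x => (Real.exp_pos _).le), integral_exp_neg]
  simp

instance : IsProbabilityMeasure E1 := ⟨E1_univ⟩

theorem pi_E1 (N : ℕ) :
    Measure.pi (fun _ : Fin N => E1) =
      (volume.restrict (Set.pi univ (fun _ : Fin N => Ioi (0:ℝ)))).withDensity
        (fun x => ENNReal.ofReal (Real.exp (-∑ i, x i))) := by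
  refine Measure.pi_eq (fun s hs => ?_)
  have hint : ∀ i, Integrable ((s i).indicator (fun y => Real.exp (-y)))
      (volume.restrict (Ioi (0:ℝ))) := fun i => integrable_exp_neg.indicator (hs i)
  rw [withDensity_apply _ (MeasurableSet.univ_pi hs), ← lintegral_indicator (MeasurableSet.univ_pi hs)]
  have h1 : (Set.pi univ s).indicator (fun x : Fin N → ℝ => ENNReal.ofReal (Real.exp (-∑ i, x i)))
      = fun x => ENNReal.ofReal (∏ i, (s i).indicator (fun y => Real.exp (-y)) (x i)) := by
    funext x
    by_cases hx : x ∈ Set.pi univ s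
    · rw [indicator_of_mem hx]
      congr 1
      rw [← Finset.sum_neg_distrib, Real.exp_sum]
      refine Finset.prod_congr rfl (fun i _ => ?_)
      rw [indicator_of_mem (hx i (mem_univ i))]
    · rw [indicator_of_notMem hx]
      have : ∃ i, x i ∉ s i := by
        by_contra hcon
        push Not at hcon
        exact hx (fun i _ => hcon i)
      obtain ⟨i, hi⟩ := this
      rw [Finset.prod_eq_zero (Finset.mem_univ i)]
      · simp
      · rw [indicator_of_notMem hi]
  rw [h1, volume_pi, Measure.restrict_pi_pi,
    ← ofReal_integral_eq_lintegral_ofReal (Integrable.fin_nat_prod hint)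
      (Filter.Eventually.of_forall fun x => Finset.prod_nonneg fun i _ =>
        indicator_nonneg (fun y _ => (Real.exp_pos _).le) _),
    integral_fin_nat_prod_eq_prod, ENNReal.ofReal_prod_of_nonneg]
  · refine Finset.prod_congr rfl (fun i _ => ?_)
    rw [E1, withDensity_apply _ (hs i), ← lintegral_indicator (hs i),
      ofReal_integral_eq_lintegral_ofReal (hint i)
      (Filter.Eventually.of_forall fun x => indicator_nonneg (fun y _ => (Real.exp_pos _).le) _)]
    refine lintegral_congr fun y => ?_
    by_cases hy : y ∈ s i <;> simp [hy]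
  · intro i _
    exact integral_nonneg (fun x => indicator_nonneg (fun y _ => (Real.exp_pos _).le) _)

/-- orthant integral against `exp (-∑ x_i)` = expectation under product of `E1` -/
theorem orthant_integral (N : ℕ) (f : (Fin N → ℝ) → ℝ) :
    ∫ x in Set.pi univ (fun _ : Fin N => Ioi (0 : ℝ)), f x * Real.exp (-∑ i, x i)
      = ∫ x, f x ∂(Measure.pi (fun _ : Fin N => E1)) := by
  rw [pi_E1, integral_withDensity_eq_integral_toReal_smul (by fun_prop)
    (Filter.Eventually.of_forall fun x => ENNReal.ofReal_lt_top)]
  refine integral_congr_ae (Filter.Eventually.of_forall fun x => ?_)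
  simp only [smul_eq_mul]
  rw [ENNReal.toReal_ofReal (Real.exp_pos _).le, mul_comm]

/-- one-variable integral under `E1` -/
theorem E1_integral (f : ℝ → ℝ) :
    ∫ x, f x ∂E1 = ∫ x in Ioi (0:ℝ), f x * Real.exp (-x) := by
  rw [E1, integral_withDensity_eq_integral_toReal_smul (by fun_prop)
    (Filter.Eventually.of_forall fun x => ENNReal.ofReal_lt_top)]
  refine integral_congr_ae (Filter.Eventually.of_forall fun x => ?_)
  simp only [smul_eq_mul]
  rw [ENNReal.toReal_ofReal (Real.exp_pos _).le, mul_comm]

theorem E1_integrable_iff (f : ℝ → ℝ) :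
    Integrable f E1 ↔ IntegrableOn (fun x => f x * Real.exp (-x)) (Ioi (0:ℝ)) := by
  rw [E1, integrable_withDensity_iff_integrable_smul' (by fun_prop)
    (Filter.Eventually.of_forall fun x => ENNReal.ofReal_lt_top), IntegrableOn]
  refine integrable_congr (Filter.Eventually.of_forall fun x => ?_)
  simp only [smul_eq_mul]
  rw [ENNReal.toReal_ofReal (Real.exp_pos _).le, mul_comm]

end Crest.Agent.R280
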