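import Mathlib
import Crest.Prelude.Def_TruncExpWeight
import Crest.Agent.R280.Orthant

set_option autoImplicit false
open MeasureTheory Set ProbabilityTheory
open scoped ENNReal

namespace Crest.Agent.R280

theorem int_pow (n : ℕ) : IntegrableOn (fun x : ℝ => x ^ n * Real.exp (-x)) (Ioi (0:ℝ)) := by
  have := Real.GammaIntegral_convergent (s := (n:ℝ) + 1) (by positivity)
  refine this.congr_fun (fun x hx => ?_) measurableSet_Ioi
  simp only [add_sub_cancel_right, Real.rpow_natCast]
  ring

theorem integral_pow (n : ℕ) : ∫ x in Ioi (0:ℝ), x ^ n * Real.exp (-x) = (n.factorial : ℝ) := by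
  rw [← Real.Gamma_nat_eq_factorial, Real.Gamma_eq_integral (by positivity)]
  refine setIntegral_congr_fun measurableSet_Ioi (fun x hx => ?_)
  simp only [add_sub_cancel_right, Real.rpow_natCast]
  ring

theorem E1_int_pow (n : ℕ) : Integrable (fun x : ℝ => x ^ n) E1 := by
  rw [E1_integrable_iff]; exact int_pow n

theorem E1_pow (n : ℕ) : ∫ x, x ^ n ∂E1 = (n.factorial : ℝ) := by
  rw [E1_integral]; exact integral_pow n

theorem E1_int_id : Integrable (fun x : ℝ => x) E1 := by
  simpa using E1_int_pow 1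

theorem E1_mean : ∫ x, x ∂E1 = 1 := by simpa using E1_pow 1

theorem E1_memLp_id : MemLp (fun x : ℝ => x) 2 E1 := by
  rw [memLp_two_iff_integrable_sq (by fun_prop)]
  exact E1_int_pow 2

theorem E1_memLp (b : ℝ) : MemLp (fun x : ℝ => b * (x - 1)) 2 E1 :=
  (E1_memLp_id.sub (memLp_const 1)).const_mul b

theorem E1_aff (b : ℝ) : ∫ x, b * (x - 1) ∂E1 = 0 := by
  rw [integral_const_mul, integral_sub E1_int_id (integrable_const _), E1_mean]
  simp

theorem E1_var (b : ℝ) : Var[fun x : ℝ => b * (x - 1); E1] = b ^ 2 := by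
  rw [variance_of_integral_eq_zero (by fun_prop) (E1_aff b)]
  have : (fun x : ℝ => (b * (x - 1)) ^ 2) = fun x => b ^ 2 * (x ^ 2 - 2 * x + 1) := by
    funext x; ring
  simp only [this]
  rw [integral_const_mul, integral_add, integral_sub, integral_const_mul, E1_mean, E1_pow]
  · simp [Nat.factorial]
  · exact E1_int_pow 2
  · exact E1_int_id.const_mul 2
  · exact (E1_int_pow 2).sub (E1_int_id.const_mul 2)
  · exact integrable_const _

theorem pi_memLp (N : ℕ) (b : Fin N → ℝ) :
    MemLp (fun ω : Fin N → ℝ => ∑ i, b i * (ω i - 1)) 2 (Measure.pi fun _ : Fin N => E1) :=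
  memLp_finsetSum _ (fun i _ => (E1_memLp (b i)).comp_measurePreserving (measurePreserving_eval _ i))

theorem pi_mean (N : ℕ) (b : Fin N → ℝ) :
    ∫ ω : Fin N → ℝ, ∑ i, b i * (ω i - 1) ∂(Measure.pi fun _ : Fin N => E1) = 0 := by
  rw [integral_finsetSum]
  · refine Finset.sum_eq_zero (fun i _ => ?_)
    rw [integral_comp_eval (μ := fun _ : Fin N => E1) (i := i) (f := fun x : ℝ => b i * (x - 1))
      (by fun_prop), E1_aff]
  · intro i _
    exact integrable_comp_eval (μ := fun _ : Fin N => E1) (i := i) (f := fun x : ℝ => b i * (x - 1))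
      ((E1_memLp (b i)).integrable (by norm_num))

theorem pi_sq (N : ℕ) (b : Fin N → ℝ) :
    ∫ ω : Fin N → ℝ, (∑ i, b i * (ω i - 1)) ^ 2 ∂(Measure.pi fun _ : Fin N => E1) = ∑ i, b i ^ 2 := by
  have h := variance_sum_pi (μ := fun _ : Fin N => E1) (X := fun i (x : ℝ) => b i * (x - 1))
    (fun i => E1_memLp (b i))
  simp only [E1_var] at h
  rw [← h]
  have : (∑ i, fun ω : Fin N → ℝ => b i * (ω i - 1)) = fun ω => ∑ i, b i * (ω i - 1) := by
    funext ω; simp
  rw [this, variance_of_integral_eq_zero (pi_memLp N b).aemeasurable (pi_mean N b)]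

theorem pi_sq_integrable (N : ℕ) (b : Fin N → ℝ) :
    Integrable (fun ω : Fin N → ℝ => (∑ i, b i * (ω i - 1)) ^ 2) (Measure.pi fun _ : Fin N => E1) :=
  (pi_memLp N b).integrable_sq

end Crest.Agent.R280
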