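import Mathlib
import Crest.Prelude.Def_TruncExpWeight
import Crest.Agent.R280.Orthant
import Crest.Agent.R280.Moments

set_option autoImplicit false
open MeasureTheory Set ProbabilityTheory Filter Topology
open scoped ENNReal
open Crest.AlgGeometry (truncExpWeight)

namespace Crest.Agent.R280

theorem tew_eq (y : ℝ) : truncExpWeight y = (1 + max y 0) * Real.exp (-(max y 0)) := by
  unfold truncExpWeight
  split_ifs with h
  · rw [max_eq_right h]; simp
  · rw [max_eq_left (not_le.mp h).le]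

theorem tew_continuous : Continuous truncExpWeight := by
  have : truncExpWeight = fun y : ℝ => (1 + max y 0) * Real.exp (-(max y 0)) := funext tew_eq
  rw [this]
  fun_prop

theorem tew_lip (y z : ℝ) : |truncExpWeight y - truncExpWeight z| ≤ |y - z| := by
  have key : ∀ s ∈ Ici (0:ℝ), ∀ t ∈ Ici (0:ℝ),
      ‖(1 + t) * Real.exp (-t) - (1 + s) * Real.exp (-s)‖ ≤ 1 * ‖t - s‖ := by
    intro s hs t ht
    refine Convex.norm_image_sub_le_of_norm_hasDerivWithin_le (s := Ici (0:ℝ))
      (f := fun t : ℝ => (1 + t) * Real.exp (-t)) (f' := fun t : ℝ => - t * Real.exp (-t))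
      (fun x _ => ?_) (fun x hx => ?_) (convex_Ici 0) hs ht
    · have h1 : HasDerivAt (fun t : ℝ => (1 + t) * Real.exp (-t))
          (1 * Real.exp (-x) + (1 + x) * (Real.exp (-x) * (-1))) x :=
        ((hasDerivAt_id x).const_add 1).mul ((hasDerivAt_neg x).exp)
      convert h1.hasDerivWithinAt using 1
      ring
    · have hx0 : (0:ℝ) ≤ x := hx
      rw [Real.norm_eq_abs, neg_mul, abs_neg, abs_of_nonneg (by positivity), Real.exp_neg]
      have h2 : x ≤ Real.exp x := by linarith [Real.add_one_le_exp x]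
      have h3 := Real.exp_pos x
      rw [← div_eq_mul_inv, div_le_one h3]
      exact h2
  rw [tew_eq, tew_eq]
  have := key (max z 0) (mem_Ici.mpr (le_max_right _ _)) (max y 0) (mem_Ici.mpr (le_max_right _ _))
  rw [Real.norm_eq_abs, Real.norm_eq_abs, one_mul] at this
  refine this.trans ?_
  exact abs_max_sub_max_le_abs y z 0

theorem tew_nonneg (y : ℝ) : 0 ≤ truncExpWeight y := by
  rw [tew_eq]
  have : (0:ℝ) ≤ max y 0 := le_max_right _ _
  positivity

theorem tew_le_one (y : ℝ) : truncExpWeight y ≤ 1 := by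
  rw [tew_eq]
  set t := max y 0
  have ht : (0:ℝ) ≤ t := le_max_right _ _
  have h3 := Real.exp_pos t
  rw [Real.exp_neg, ← div_eq_mul_inv, div_le_one h3]
  linarith [Real.add_one_le_exp t]

theorem main_val_tail :
    IntegrableOn (fun x : ℝ => (1/3 + 2 * x) * Real.exp (-(3 * x))) (Ioi (1/3 : ℝ)) ∧
    ∫ x in Ioi (1/3 : ℝ), (1/3 + 2 * x) * Real.exp (-(3 * x)) = 5 / 9 * Real.exp (-1) := by
  have hd : ∀ x ∈ Ici (1/3 : ℝ), HasDerivAt (fun x : ℝ => -((1 + 2 * x) / 3 * Real.exp (-(3 * x))))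
      ((1/3 + 2 * x) * Real.exp (-(3 * x))) x := by
    intro x _
    have h1 : HasDerivAt (fun x : ℝ => (1 + 2 * x) / 3) (2 / 3) x := by
      have := (((hasDerivAt_id x).const_mul 2).const_add 1).div_const 3
      simpa using this
    have h2 : HasDerivAt (fun x : ℝ => Real.exp (-(3 * x))) (Real.exp (-(3 * x)) * (-3)) x := by
      have := (((hasDerivAt_id x).const_mul 3).neg).exp
      simpa using this
    have h3 := (h1.mul h2).neg
    refine h3.congr_deriv ?_
    ring
  have hlim : Tendsto (fun x : ℝ => -((1 + 2 * x) / 3 * Real.exp (-(3 * x)))) atTop (𝓝 0) := by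
    have h0 : Tendsto (fun x : ℝ => 3 * x) atTop atTop :=
      tendsto_id.const_mul_atTop (by norm_num)
    have h1 : Tendsto (fun x : ℝ => Real.exp (-(3 * x))) atTop (𝓝 0) :=
      Real.tendsto_exp_neg_atTop_nhds_zero.comp h0
    have h2 : Tendsto (fun x : ℝ => (3 * x) ^ 1 * Real.exp (-(3 * x))) atTop (𝓝 0) :=
      (Real.tendsto_pow_mul_exp_neg_atTop_nhds_zero 1).comp h0
    have h3 := ((h1.const_mul (1/3 : ℝ)).add (h2.const_mul (2/9 : ℝ))).neg
    simp only [mul_zero, add_zero, neg_zero] at h3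
    refine h3.congr (fun x => ?_)
    ring
  have hpos : ∀ x ∈ Ioi (1/3 : ℝ), 0 ≤ (1/3 + 2 * x) * Real.exp (-(3 * x)) := by
    intro x hx
    have : (1/3 : ℝ) < x := hx
    have : (0:ℝ) ≤ 1/3 + 2 * x := by linarith
    positivity
  refine ⟨integrableOn_Ioi_deriv_of_nonneg' hd hpos hlim, ?_⟩
  rw [integral_Ioi_of_hasDerivAt_of_nonneg' hd hpos hlim]
  norm_num

theorem main_val : ∫ x, truncExpWeight (2 * x - 2 / 3) ∂E1 = 1 - 4 / 9 * Real.exp (-(1/3)) := by
  rw [E1_integral]
  have hsplit : Ioi (0:ℝ) = Ioc 0 (1/3) ∪ Ioi (1/3) := (Ioc_union_Ioi_eq_Ioi (by norm_num)).symm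
  have hint : IntegrableOn (fun x : ℝ => truncExpWeight (2 * x - 2 / 3) * Real.exp (-x)) (Ioi 0) := by
    refine Integrable.mono' integrable_exp_neg ?_ ?_
    · exact ((tew_continuous.comp (by fun_prop)).mul (by fun_prop)).aestronglyMeasurable
    · refine Eventually.of_forall (fun x => ?_)
      rw [Real.norm_eq_abs, abs_of_nonneg (mul_nonneg (tew_nonneg _) (Real.exp_pos _).le)]
      exact mul_le_of_le_one_left (Real.exp_pos _).le (tew_le_one _)
  have hi1 := hint.mono_set (show Ioc (0:ℝ) (1/3) ⊆ Ioi 0 from fun x hx => hx.1)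
  have hi2 := hint.mono_set (show Ioi (1/3 : ℝ) ⊆ Ioi 0 from Ioi_subset_Ioi (by norm_num))
  rw [hsplit, setIntegral_union (by
    rw [Set.disjoint_left]; intro x hx hx2
    exact absurd hx.2 (not_le.mpr hx2)) measurableSet_Ioi hi1 hi2]
  have e1 : ∫ x in Ioc (0:ℝ) (1/3), truncExpWeight (2 * x - 2 / 3) * Real.exp (-x)
      = 1 - Real.exp (-(1/3)) := by
    have : ∫ x in Ioc (0:ℝ) (1/3), truncExpWeight (2 * x - 2 / 3) * Real.exp (-x)
      = ∫ x in Ioc (0:ℝ) (1/3), Real.exp (-x) := by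
      refine setIntegral_congr_fun measurableSet_Ioc (fun x hx => ?_)
      have : 2 * x - 2/3 ≤ 0 := by linarith [hx.2]
      simp only [truncExpWeight]
      rw [if_pos this, one_mul]
    rw [this, ← intervalIntegral.integral_of_le (by norm_num),
      intervalIntegral.integral_comp_neg (fun x => Real.exp x), integral_exp]
    simp
  have e2 : ∫ x in Ioi (1/3:ℝ), truncExpWeight (2 * x - 2 / 3) * Real.exp (-x)
      = 5 / 9 * Real.exp (-(1/3)) := by
    have : ∫ x in Ioi (1/3:ℝ), truncExpWeight (2 * x - 2 / 3) * Real.exp (-x)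
      = ∫ x in Ioi (1/3:ℝ), Real.exp (2/3) * ((1/3 + 2 * x) * Real.exp (-(3 * x))) := by
      refine setIntegral_congr_fun measurableSet_Ioi (fun x hx => ?_)
      have hx' : (1/3:ℝ) < x := hx
      have : ¬ (2 * x - 2/3 ≤ 0) := by linarith
      simp only [truncExpWeight]
      rw [if_neg this]
      have h1 : Real.exp (2/3) * ((1/3 + 2 * x) * Real.exp (-(3 * x)))
        = (1/3 + 2 * x) * (Real.exp (2/3) * Real.exp (-(3 * x))) := by ring
      rw [h1, mul_assoc, ← Real.exp_add, ← Real.exp_add]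
      congr 1
      · ring
      · congr 1; ring
    rw [this, integral_const_mul, main_val_tail.2]
    have : Real.exp (2/3) * (5 / 9 * Real.exp (-1)) = 5 / 9 * (Real.exp (2/3) * Real.exp (-1)) := by ring
    rw [this, ← Real.exp_add]
    norm_num
  rw [e1, e2]
  ring

/-- the exact second conjunct -/
theorem sharp : ∀ ε : ℝ, 0 < ε → ∃ (N : ℕ) (a : Fin N → ℝ), 1 ≤ N ∧ ∑ i, a i = 0 ∧
      3 / 4 * Real.exp (4 / 3) - Real.exp 1 / 3 - ε <
        Real.exp (4 / 3) / (4 / 3) *
          ∫ x in Set.pi Set.univ (fun _ : Fin N => Set.Ioi (0 : ℝ)),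
            Crest.AlgGeometry.truncExpWeight (4 / 3 + ∑ i, a i * x i) * Real.exp (-∑ i, x i) := by
  intro ε hε
  set C : ℝ := Real.exp (4/3) / (4/3) with hC
  have hCpos : 0 < C := by positivity
  set δ : ℝ := ε / C with hδ
  have hδpos : 0 < δ := by positivity
  obtain ⟨n, hn⟩ := exists_nat_gt (4 / δ ^ 2)
  have hn0 : (0:ℝ) < n := lt_of_le_of_lt (by positivity) hn
  have hn0' : (n:ℝ) ≠ 0 := hn0.ne'
  refine ⟨n + 1, Fin.cons 2 (fun _ => -2 / n), by omega, ?_, ?_⟩
  · rw [Fin.sum_univ_succ]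
    simp
    field_simp
    ring
  · set π : Measure (Fin (n+1) → ℝ) := Measure.pi (fun _ : Fin (n+1) => E1) with hπ
    rw [orthant_integral (n+1) (fun x => truncExpWeight (4 / 3 + ∑ i, (Fin.cons 2 (fun _ => -2 / (n:ℝ)) : Fin (n+1) → ℝ) i * x i))]
    set b : Fin (n+1) → ℝ := Fin.cons 0 (fun _ => -2 / (n:ℝ)) with hb
    have hpt : ∀ x : Fin (n+1) → ℝ,
        truncExpWeight (2 * x 0 - 2/3) - ((∑ i, b i * (x i - 1)) ^ 2 / (2 * δ) + δ / 2)
        ≤ truncExpWeight (4 / 3 + ∑ i, (Fin.cons 2 (fun _ => -2 / (n:ℝ)) : Fin (n+1) → ℝ) i * x i) := by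
      intro x
      set T := ∑ i, b i * (x i - 1) with hT
      have h1 : 4 / 3 + ∑ i, (Fin.cons 2 (fun _ => -2 / (n:ℝ)) : Fin (n+1) → ℝ) i * x i
          = (2 * x 0 - 2/3) + T := by
        rw [hT, hb, Fin.sum_univ_succ, Fin.sum_univ_succ]
        simp only [Fin.cons_zero, Fin.cons_succ, zero_mul, mul_sub, mul_one,
          Finset.sum_sub_distrib, Finset.sum_const, Finset.card_univ, Fintype.card_fin, nsmul_eq_mul]
        field_simp
        ring
      rw [h1]
      have h2 := tew_lip (2 * x 0 - 2/3) ((2 * x 0 - 2/3) + T)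
      have h3 : |2 * x 0 - 2/3 - ((2 * x 0 - 2/3) + T)| = |T| := by
        rw [show 2 * x 0 - 2/3 - ((2 * x 0 - 2/3) + T) = -T by ring, abs_neg]
      rw [h3] at h2
      have h4 : |T| ≤ T ^ 2 / (2 * δ) + δ / 2 := by
        have h5 : 0 ≤ (|T| - δ) ^ 2 := sq_nonneg _
        have h6 : |T| ^ 2 = T ^ 2 := sq_abs T
        rw [← h6, ← sub_nonneg]
        have : |T| ^ 2 / (2 * δ) + δ / 2 - |T| = (|T| - δ) ^ 2 / (2 * δ) := by
          field_simp
          ring
        rw [this]; positivity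
      have h7 := le_abs_self (truncExpWeight (2 * x 0 - 2/3) - truncExpWeight ((2 * x 0 - 2/3) + T))
      linarith
    have hbd : ∀ f : (Fin (n+1) → ℝ) → ℝ, Continuous f → Integrable (fun x => truncExpWeight (f x)) π := by
      intro f hf
      refine Integrable.mono' (integrable_const (1:ℝ)) (tew_continuous.comp hf).aestronglyMeasurable ?_
      refine Eventually.of_forall (fun x => ?_)
      rw [Real.norm_eq_abs, abs_of_nonneg (tew_nonneg _)]
      exact tew_le_one _
    have hi1 : Integrable (fun x : Fin (n+1) → ℝ => truncExpWeight (2 * x 0 - 2/3)) π :=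
      hbd _ (by fun_prop)
    have hi2 : Integrable (fun x : Fin (n+1) → ℝ => (∑ i, b i * (x i - 1)) ^ 2 / (2 * δ) + δ / 2) π :=
      ((pi_sq_integrable (n+1) b).div_const _).add (integrable_const _)
    have hint := integral_mono (hi1.sub hi2) (hbd (fun x => 4 / 3 + ∑ i, (Fin.cons 2 (fun _ => -2 / (n:ℝ)) : Fin (n+1) → ℝ) i * x i) (by fun_prop)) hpt
    have hval : ∫ x, (truncExpWeight (2 * x 0 - 2/3) - ((∑ i, b i * (x i - 1)) ^ 2 / (2 * δ) + δ / 2)) ∂π
        = (1 - 4 / 9 * Real.exp (-(1/3))) - ((∑ i, b i ^ 2) / (2 * δ) + δ / 2) := by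
      rw [integral_sub hi1 hi2, integral_add ((pi_sq_integrable (n+1) b).div_const _) (integrable_const _),
        integral_div, pi_sq, hπ,
        integral_comp_eval (μ := fun _ : Fin (n+1) => E1) (i := 0)
          (f := fun x : ℝ => truncExpWeight (2 * x - 2 / 3))
          (tew_continuous.comp (by fun_prop)).aestronglyMeasurable, main_val]
      simp
    have hsum : ∑ i, b i ^ 2 = 4 / n := by
      rw [hb, Fin.sum_univ_succ]
      simp
      field_simp
      ring
    have hfin : (1 - 4 / 9 * Real.exp (-(1/3))) - ((4 / n) / (2 * δ) + δ / 2)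
        ≤ ∫ x, truncExpWeight (4 / 3 + ∑ i, (Fin.cons 2 (fun _ => -2 / (n:ℝ)) : Fin (n+1) → ℝ) i * x i) ∂π := by
      rw [← hsum, ← hval]
      exact hint
    have hsmall : (4 / n) / (2 * δ) < δ / 2 := by
      rw [div_lt_iff₀ (by positivity), div_lt_iff₀ hn0]
      rw [div_lt_iff₀ (by positivity)] at hn
      nlinarith
    have hCδ : C * δ = ε := by rw [hδ]; field_simp
    have hCM : C * (1 - 4 / 9 * Real.exp (-(1/3))) = 3 / 4 * Real.exp (4 / 3) - Real.exp 1 / 3 := by
      have h1 : Real.exp (4/3) * Real.exp (-(1/3)) = Real.exp 1 := by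
        rw [← Real.exp_add]; norm_num
      rw [hC, ← h1]
      ring
    calc 3 / 4 * Real.exp (4 / 3) - Real.exp 1 / 3 - ε
        = C * ((1 - 4 / 9 * Real.exp (-(1/3))) - δ) := by rw [mul_sub, hCM, hCδ]
      _ < C * ((1 - 4 / 9 * Real.exp (-(1/3))) - ((4 / n) / (2 * δ) + δ / 2)) := by
        apply mul_lt_mul_of_pos_left _ hCpos
        linarith
      _ ≤ _ := mul_le_mul_of_nonneg_left hfin hCpos.le

end Crest.Agent.R280
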