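import Crest.Agent.R280.LC
import Crest.Prelude.Def_TruncExpWeight

set_option autoImplicit false

open MeasureTheory Set Filter Topology Crest.AlgGeometry

namespace Crest.Agent.R280

/-- continuous + midpoint concave implies the three point inequality -/
lemma three_point {u : ℝ → ℝ} {p q r : ℝ} (hpq : p ≤ q) (hqr : q ≤ r) (hpr : p < r)
    (hu : ContinuousOn u (Icc p r))
    (hmid : ∀ x h, 0 ≤ h → p ≤ x - h → x + h ≤ r → u (x - h) + u (x + h) ≤ 2 * u x) :
    (r - q) * u p + (q - p) * u r ≤ (r - p) * u q := by
  set w : ℝ → ℝ := fun x => (r - p) * u x - (r - x) * u p - (x - p) * u r with hw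
  have hwc : ContinuousOn w (Icc p r) := by
    refine ContinuousOn.sub (ContinuousOn.sub (continuousOn_const.mul hu) ?_) ?_ <;> fun_prop
  have hwmid : ∀ x h, 0 ≤ h → p ≤ x - h → x + h ≤ r → w (x - h) + w (x + h) ≤ 2 * w x := by
    intro x h hh h1 h2
    have := mul_le_mul_of_nonneg_left (hmid x h hh h1 h2) (by linarith : 0 ≤ r - p)
    simp only [hw]
    nlinarith
  have hwp : w p = 0 := by simp [hw]
  have hwr : w r = 0 := by simp [hw]
  suffices h : 0 ≤ w q by
    simp only [hw] at h; linarith
  by_contra hneg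
  push Not at hneg
  obtain ⟨x1, hx1, hmin⟩ := isCompact_Icc.exists_isMinOn (nonempty_Icc.2 hpr.le) hwc
  have hmin' : ∀ x ∈ Icc p r, w x1 ≤ w x := fun x hx => hmin hx
  have hx1neg : w x1 < 0 := lt_of_le_of_lt (hmin' q ⟨hpq, hqr⟩) hneg
  have hS : IsCompact (Icc p r ∩ w ⁻¹' {w x1}) := by
    have : IsClosed (Icc p r ∩ w ⁻¹' {w x1}) :=
      hwc.preimage_isClosed_of_isClosed isClosed_Icc isClosed_singleton
    exact isCompact_Icc.of_isClosed_subset this inter_subset_left
  obtain ⟨x0, hx0, hleast⟩ := hS.exists_isLeast ⟨x1, hx1, rfl⟩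
  have hx0v : w x0 = w x1 := hx0.2
  have hx0p : p < x0 := by
    rcases eq_or_lt_of_le hx0.1.1 with h | h
    · rw [← h, hwp] at hx0v; linarith
    · exact h
  have hx0r : x0 < r := by
    rcases eq_or_lt_of_le hx0.1.2 with h | h
    · rw [h, hwr] at hx0v; linarith
    · exact h
  set h := min (x0 - p) (r - x0) with hh
  have hpos : 0 < h := lt_min (by linarith) (by linarith)
  have h1 : h ≤ x0 - p := min_le_left _ _
  have h2 : h ≤ r - x0 := min_le_right _ _
  have m := hwmid x0 h hpos.le (by linarith) (by linarith)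
  have m1 := hmin' (x0 - h) ⟨by linarith, by linarith⟩
  have m2 := hmin' (x0 + h) ⟨by linarith, by linarith⟩
  have : x0 - h ∈ Icc p r ∩ w ⁻¹' {w x1} :=
    ⟨⟨by linarith, by linarith⟩, by simp only [mem_preimage, mem_singleton_iff]; linarith⟩
  have := hleast this
  linarith

/-- three point inequality for the logarithm of a Good function -/
lemma Good.log_three {f : ℝ → ℝ} (hf : Good f) {p q r : ℝ} (hpq : p ≤ q) (hqr : q ≤ r)
    (hpr : p < r) (hpos : ∀ x ∈ Icc p r, 0 < f x) :
    (r - q) * Real.log (f p) + (q - p) * Real.log (f r) ≤ (r - p) * Real.log (f q) := by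
  refine three_point (u := fun x => Real.log (f x)) hpq hqr hpr ?_ ?_
  · exact hf.continuous.continuousOn.log (fun x hx => (hpos x hx).ne')
  · intro x h hh h1 h2
    have e := hf.lc x (x - h) h (by linarith) hh
    rw [sub_add_cancel] at e
    have p1 := hpos (x - h) ⟨h1, by linarith⟩
    have p2 := hpos (x + h) ⟨by linarith, h2⟩
    have p3 := hpos x ⟨by linarith, by linarith⟩
    have := Real.log_le_log (mul_pos p2 p1) e
    rw [Real.log_mul p2.ne' p1.ne', Real.log_mul p3.ne' p3.ne'] at this
    linarith

/-- `E (t + ∑ a_i X_i)_+` -/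
noncomputable def II (N : ℕ) (a : Fin N → ℝ) (t : ℝ) : ℝ :=
  ∫ x, max (t + ∑ i, a i * x i) 0 ∂(Measure.pi (fun _ : Fin N => nu))

lemma integrable_lin (N : ℕ) (a : Fin N → ℝ) (t : ℝ) :
    Integrable (fun x : Fin N → ℝ => t + ∑ i, a i * x i) (Measure.pi (fun _ : Fin N => nu)) := by
  refine (integrable_const t).add (integrable_finsetSum _ fun i _ => ?_)
  exact (integrable_comp_eval (μ := fun _ : Fin N => nu) integrable_id_nu).const_mul (a i)

lemma integral_lin (N : ℕ) (a : Fin N → ℝ) (t : ℝ) :
    ∫ x : Fin N → ℝ, t + ∑ i, a i * x i ∂(Measure.pi (fun _ : Fin N => nu)) = t + ∑ i, a i := by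
  have hi : ∀ i : Fin N, Integrable (fun x : Fin N → ℝ => a i * x i)
      (Measure.pi (fun _ : Fin N => nu)) := fun i =>
    (integrable_comp_eval (μ := fun _ : Fin N => nu) integrable_id_nu).const_mul (a i)
  rw [integral_add (integrable_const t) (integrable_finsetSum _ fun i _ => hi i),
    integral_finsetSum _ fun i _ => hi i]
  simp only [integral_const, probReal_univ, smul_eq_mul, one_mul]
  congr 1
  refine Finset.sum_congr rfl fun i _ => ?_
  rw [integral_const_mul, integral_comp_eval (μ := fun _ : Fin N => nu) (f := fun x : ℝ => x)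
    (by fun_prop), integral_id_nu, mul_one]

lemma integrable_max (N : ℕ) (a : Fin N → ℝ) (t : ℝ) :
    Integrable (fun x : Fin N → ℝ => max (t + ∑ i, a i * x i) 0)
      (Measure.pi (fun _ : Fin N => nu)) :=
  (integrable_lin N a t).pos_part

lemma II_succ (N : ℕ) (a : Fin (N+1) → ℝ) :
    II (N+1) a = T (a 0) (II N (fun i => a i.succ)) := by
  funext t
  unfold II T
  rw [integral_succ _ _ (integrable_max (N+1) a t)]
  refine integral_congr_ae (Eventually.of_forall fun u => ?_)
  refine integral_congr_ae (Eventually.of_forall fun x => ?_)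
  simp only [Fin.sum_univ_succ, Fin.cons_zero, Fin.cons_succ]
  congr 1
  ring

lemma good_II : ∀ (N : ℕ) (a : Fin N → ℝ), Good (II N a) := by
  intro N
  induction N with
  | zero =>
    intro a
    have : II 0 a = fun t => max t 0 := by
      funext t
      unfold II
      simp
    rw [this]; exact good_posPart
  | succ n ih =>
    intro a
    rw [II_succ]
    exact (ih _).T _

lemma II_mono (N : ℕ) (a : Fin N → ℝ) : Monotone (II N a) := by
  intro s t hst
  unfold II
  refine integral_mono (integrable_max N a s) (integrable_max N a t) (fun x => ?_)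
  exact max_le_max_right 0 (by linarith)

lemma II_ge (N : ℕ) (a : Fin N → ℝ) (ha : ∑ i, a i = 0) (t : ℝ) : t ≤ II N a t := by
  have h := integral_lin N a t
  rw [ha, add_zero] at h
  calc t = ∫ x : Fin N → ℝ, t + ∑ i, a i * x i ∂(Measure.pi (fun _ : Fin N => nu)) := h.symm
    _ ≤ _ := integral_mono (integrable_lin N a t) (integrable_max N a t) fun x => le_max_left _ _

/-- the pointwise identity -/
lemma g_identity (y : ℝ) :
    ∫ z, (1 - z) * max (y - z) 0 ∂nu = 1 - truncExpWeight y := by
  rw [integral_nu]
  unfold truncExpWeight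
  rcases le_or_gt y 0 with hy | hy
  · rw [if_pos hy, sub_self]
    rw [setIntegral_congr_fun (g := fun _ => (0:ℝ)) measurableSet_Ioi]
    · simp
    · intro z hz
      simp only
      rw [max_eq_right (by have : (0:ℝ) < z := hz; linarith)]
      ring
  · rw [if_neg (not_le.2 hy)]
    have h1 : ∫ z in Ioi (0:ℝ), Real.exp (-z) * ((1 - z) * max (y - z) 0) =
        ∫ z in (0:ℝ)..y, Real.exp (-z) * ((1 - z) * (y - z)) := by
      rw [intervalIntegral.integral_of_le hy.le]
      have : ∀ z ∈ Ioi (0:ℝ), Real.exp (-z) * ((1 - z) * max (y - z) 0) =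
          (Ioc 0 y).indicator (fun z => Real.exp (-z) * ((1 - z) * (y - z))) z := by
        intro z hz
        rcases le_or_gt z y with h | h
        · rw [indicator_of_mem (show z ∈ Ioc 0 y from ⟨hz, h⟩), max_eq_left (by linarith)]
        · rw [indicator_of_notMem (fun h' => absurd h'.2 (not_le.2 h)),
            max_eq_right (by linarith)]
          ring
      rw [setIntegral_congr_fun measurableSet_Ioi this, setIntegral_indicator measurableSet_Ioc]
      congr 2
      ext z; simp only [mem_inter_iff, mem_Ioi, mem_Ioc]; tauto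
    rw [h1]
    have hd : ∀ z ∈ uIcc 0 y, HasDerivAt (fun z : ℝ => -((z^2 + (1 - y) * z + 1) * Real.exp (-z)))
        (Real.exp (-z) * ((1 - z) * (y - z))) z := by
      intro z _
      have e1 : HasDerivAt (fun x : ℝ => Real.exp (-x)) (-Real.exp (-z)) z := by
        simpa using ((hasDerivAt_id z).neg).exp
      have e2 : HasDerivAt (fun z : ℝ => z^2 + (1 - y) * z + 1) (2 * z + (1 - y)) z := by
        have := (((hasDerivAt_pow 2 z).add ((hasDerivAt_id z).const_mul (1 - y))).add_const 1)
        refine this.congr_deriv ?_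
        simp
      refine ((e2.mul e1).neg).congr_deriv ?_
      ring
    rw [intervalIntegral.integral_eq_sub_of_hasDerivAt hd
      (Continuous.intervalIntegrable (by fun_prop) _ _)]
    simp
    ring


lemma measurable_trunc : Measurable truncExpWeight := by
  unfold truncExpWeight
  exact Measurable.ite measurableSet_Iic measurable_const (by fun_prop)

lemma integrable_sq_nu : Integrable (fun x : ℝ => x ^ 2) nu := by
  rw [integrable_nu_iff]
  have := Real.GammaIntegral_convergent (s := 3) (by norm_num)
  refine this.congr_fun (fun x hx => ?_) measurableSet_Ioi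
  norm_num

/-- Fubini -/
lemma one_sub_E (N : ℕ) (a : Fin N → ℝ) :
    ∫ x : Fin N → ℝ, (1 - truncExpWeight (4 / 3 + ∑ i, a i * x i))
        ∂(Measure.pi (fun _ : Fin N => nu))
      = ∫ z, (1 - z) * II N a (4 / 3 - z) ∂nu := by
  have h1 : ∀ x : Fin N → ℝ, 1 - truncExpWeight (4 / 3 + ∑ i, a i * x i) =
      ∫ z, (1 - z) * max (4 / 3 + ∑ i, a i * x i - z) 0 ∂nu := fun x => (g_identity _).symm
  simp_rw [h1]
  rw [integral_integral_swap]
  · refine integral_congr_ae (Eventually.of_forall fun z => ?_)
    simp only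
    rw [integral_const_mul]
    congr 1
    unfold II
    refine integral_congr_ae (Eventually.of_forall fun x => ?_)
    simp only
    congr 1; ring
  · -- integrability
    have hA : Integrable (fun x : Fin N → ℝ => |4 / 3 + ∑ i, a i * x i|)
        (Measure.pi (fun _ : Fin N => nu)) := (integrable_lin N a (4/3)).abs
    have hB : Integrable (fun z : ℝ => |1 - z|) nu :=
      ((integrable_const (1:ℝ)).sub integrable_id_nu).abs
    have hC : Integrable (fun z : ℝ => |1 - z| * |z|) nu := by
      have := (((integrable_id_nu).sub integrable_sq_nu)).abs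
      refine this.congr (Eventually.of_forall fun z => ?_)
      simp only [Pi.sub_apply]
      rw [← abs_mul]; congr 1; ring
    have hD := (hA.mul_prod hB).add ((integrable_const (1:ℝ) (μ := Measure.pi (fun _ : Fin N => nu))).mul_prod hC)
    refine hD.mono' ?_ (Eventually.of_forall fun p => ?_)
    · apply Measurable.aestronglyMeasurable
      simp only [Function.uncurry_def]
      fun_prop
    · simp only [Function.uncurry, Real.norm_eq_abs, Pi.add_apply, one_mul]
      rw [abs_mul]
      have : |max (4 / 3 + ∑ i, a i * p.1 i - p.2) 0| ≤ |4 / 3 + ∑ i, a i * p.1 i| + |p.2| := by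
        rw [abs_of_nonneg (le_max_right _ _)]
        apply max_le
        · have h1 := le_abs_self (4 / 3 + ∑ i, a i * p.1 i)
          have h2 := neg_abs_le p.2
          linarith
        · positivity
      have := mul_le_mul_of_nonneg_left this (abs_nonneg (1 - p.2))
      linarith

lemma integrable_weight (N : ℕ) (a : Fin N → ℝ) :
    Integrable (fun z => (1 - z) * II N a (4 / 3 - z)) nu := by
  have hB : Integrable (fun z : ℝ => |1 - z|) nu :=
    ((integrable_const (1:ℝ)).sub integrable_id_nu).abs
  have hC : Integrable (fun z : ℝ => |1 - z| * |z|) nu := by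
    have := (((integrable_id_nu).sub integrable_sq_nu)).abs
    refine this.congr (Eventually.of_forall fun z => ?_)
    simp only [Pi.sub_apply]
    rw [← abs_mul]; congr 1; ring
  have hD := (hB.mul_const (II N a (4/3))).add hC
  have hcont : Continuous (fun z => (1 - z) * II N a (4 / 3 - z)) :=
    (by fun_prop : Continuous fun z : ℝ => 1 - z).mul
      ((good_II N a).continuous.comp (by fun_prop))
  refine hD.mono' hcont.aestronglyMeasurable (Eventually.of_forall fun z => ?_)
  simp only [Real.norm_eq_abs, Pi.add_apply]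
  rw [abs_mul, abs_of_nonneg ((good_II N a).nonneg _)]
  have := le_of_abs_le ((good_II N a).lip (4/3 - z) (4/3))
  have e : |4 / 3 - z - 4 / 3| = |z| := by rw [show (4:ℝ) / 3 - z - 4 / 3 = -z by ring, abs_neg]
  rw [e] at this
  have := mul_le_mul_of_nonneg_left this (abs_nonneg (1 - z))
  linarith

lemma hasDerivAt_aux (k : ℝ) (hk : 0 < k) (z : ℝ) :
    HasDerivAt (fun z : ℝ => ((1 / (1 + k)) * z - k / (1 + k) ^ 2) * Real.exp (-((1 + k) * z)))
      (Real.exp (-z) * ((1 - z) * Real.exp (-(k * z)))) z := by
  have e1 : HasDerivAt (fun z : ℝ => Real.exp (-((1 + k) * z)))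
      (Real.exp (-((1 + k) * z)) * (-((1 + k) * 1))) z :=
    (((hasDerivAt_id z).const_mul (1 + k)).neg).exp
  have e2 : HasDerivAt (fun z : ℝ => (1 / (1 + k)) * z - k / (1 + k) ^ 2) ((1 / (1 + k)) * 1) z :=
    ((hasDerivAt_id z).const_mul (1 / (1 + k))).sub_const _
  refine (e2.mul e1).congr_deriv ?_
  have : Real.exp (-((1 + k) * z)) = Real.exp (-z) * Real.exp (-(k * z)) := by
    rw [← Real.exp_add]; congr 1; ring
  rw [this]
  have h1k : (1 + k) ≠ 0 := by positivity
  field_simp
  ring

lemma integrable_aux (k : ℝ) (hk : 0 < k) :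
    Integrable (fun z => (1 - z) * Real.exp (-(k * z))) nu := by
  have hB : Integrable (fun z : ℝ => |1 - z|) nu :=
    ((integrable_const (1:ℝ)).sub integrable_id_nu).abs
  refine hB.mono' (by fun_prop) ?_
  have hpos : ∀ᵐ v ∂nu, 0 ≤ v := by
    unfold nu
    refine (withDensity_absolutelyContinuous _ _).ae_le ?_
    filter_upwards [ae_restrict_mem measurableSet_Ioi] with v hv using le_of_lt hv
  filter_upwards [hpos] with z hz
  rw [Real.norm_eq_abs, abs_mul, abs_of_pos (Real.exp_pos _)]
  have : Real.exp (-(k * z)) ≤ 1 := by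
    rw [Real.exp_le_one_iff]; nlinarith
  exact mul_le_of_le_one_right (abs_nonneg _) this

lemma integral_aux (k : ℝ) (hk : 0 < k) :
    ∫ z, (1 - z) * Real.exp (-(k * z)) ∂nu = k / (1 + k) ^ 2 := by
  rw [integral_nu]
  have ht : Tendsto (fun z : ℝ => ((1 / (1 + k)) * z - k / (1 + k) ^ 2) *
      Real.exp (-((1 + k) * z))) atTop (𝓝 0) := by
    have hs : Tendsto (fun z : ℝ => (1 + k) * z) atTop atTop :=
      tendsto_id.const_mul_atTop (by positivity)
    have h1 := (Real.tendsto_pow_mul_exp_neg_atTop_nhds_zero 1).comp hs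
    have h0 := (Real.tendsto_pow_mul_exp_neg_atTop_nhds_zero 0).comp hs
    have := (h1.const_mul (1 / (1 + k) ^ 2)).sub (h0.const_mul (k / (1 + k) ^ 2))
    simp only [mul_zero, sub_zero] at this
    refine this.congr (fun z => ?_)
    simp only [Function.comp, pow_one, pow_zero]
    have h1k : (1 + k) ≠ 0 := by positivity
    field_simp
  rw [integral_Ioi_of_hasDerivAt_of_tendsto
    (hasDerivAt_aux k hk 0).continuousAt.continuousWithinAt (fun x _ => hasDerivAt_aux k hk x)
    ((integrable_nu_iff _).1 (integrable_aux k hk)) ht]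
  simp


/-- Main analytic estimate: comparison with the chord. -/
lemma main_lower (N : ℕ) (a : Fin N → ℝ) (ha : ∑ i, a i = 0) :
    4 / 9 * Real.exp (-(1/3)) ≤ ∫ z, (1 - z) * II N a (4 / 3 - z) ∂nu := by
  set f := II N a with hf
  have good : Good f := good_II N a
  have mono : Monotone f := II_mono N a
  have hge : ∀ t, t ≤ f t := II_ge N a ha
  have hpos43 : 0 < f (4/3) := lt_of_lt_of_le (by norm_num) (hge _)
  have hpos13 : 0 < f (1/3) := lt_of_lt_of_le (by norm_num) (hge _)
  set k := Real.log (f (4/3)) - Real.log (f (1/3)) with hk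
  -- upper bound for large t
  have hlarge : ∀ t, 4/3 < t → Real.log (f t) ≤ Real.log (f (4/3)) + (t - 4/3) * k := by
    intro t ht
    have := good.log_three (p := 1/3) (q := 4/3) (r := t) (by norm_num) ht.le
      (by linarith) (fun x hx => lt_of_lt_of_le hpos13 (mono hx.1))
    simp only [hk]
    nlinarith
  have hk0 : 0 < k := by
    by_contra hneg
    push Not at hneg
    have h1 : ∀ t, 4/3 < t → f t ≤ f (4/3) := by
      intro t ht
      have h2 := hlarge t ht
      have h3 : (t - 4/3) * k ≤ 0 := mul_nonpos_of_nonneg_of_nonpos (by linarith) hneg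
      have hft : 0 < f t := lt_of_lt_of_le (by linarith) (hge t)
      exact (Real.log_le_log_iff hft hpos43).1 (by linarith)
    have h4 := h1 (f (4/3) + 2) (by linarith)
    have h5 := hge (f (4/3) + 2)
    linarith
  -- pointwise comparison
  have hcomp : ∀ z, 0 ≤ z → (1 - z) * (f (4/3) * Real.exp (-(k * z))) ≤ (1 - z) * f (4 / 3 - z) := by
    intro z hz
    have e0 : f (4/3) * Real.exp (-(k * z)) = Real.exp (Real.log (f (4/3)) - k * z) := by
      rw [sub_eq_add_neg, Real.exp_add, Real.exp_log hpos43]
    rcases le_or_gt z 1 with h1 | h1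
    · apply mul_le_mul_of_nonneg_left _ (by linarith)
      have hp : 0 < f (4/3 - z) := lt_of_lt_of_le hpos13 (mono (by linarith))
      have := good.log_three (p := 1/3) (q := 4/3 - z) (r := 4/3) (by linarith) (by linarith)
        (by norm_num) (fun x hx => lt_of_lt_of_le hpos13 (mono hx.1))
      rw [e0, ← Real.exp_log hp]
      apply Real.exp_le_exp.2
      simp only [hk]
      nlinarith
    · apply mul_le_mul_of_nonpos_left _ (by linarith)
      rcases eq_or_lt_of_le (good.nonneg (4/3 - z)) with h0 | hp
      · rw [← h0]; positivity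
      · have := good.log_three (p := 4/3 - z) (q := 1/3) (r := 4/3) (by linarith) (by norm_num)
          (by linarith) (fun x hx => lt_of_lt_of_le hp (mono hx.1))
        rw [e0, ← Real.exp_log hp]
        apply Real.exp_le_exp.2
        simp only [hk]
        nlinarith
  have hposae : ∀ᵐ v ∂nu, 0 ≤ v := by
    unfold nu
    refine (withDensity_absolutelyContinuous _ _).ae_le ?_
    filter_upwards [ae_restrict_mem measurableSet_Ioi] with v hv using le_of_lt hv
  have hint : f (4/3) * (k / (1 + k) ^ 2) ≤ ∫ z, (1 - z) * f (4 / 3 - z) ∂nu := by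
    rw [← integral_aux k hk0, ← integral_const_mul]
    refine integral_mono_ae ((integrable_aux k hk0).const_mul _) (integrable_weight N a) ?_
    filter_upwards [hposae] with z hz
    have := hcomp z hz
    calc f (4/3) * ((1 - z) * Real.exp (-(k * z)))
        = (1 - z) * (f (4/3) * Real.exp (-(k * z))) := by ring
      _ ≤ _ := this
  refine le_trans ?_ hint
  rcases le_or_gt k (3/4) with hk34 | hk34
  · -- Grünbaum type bound
    have hexp : Real.exp (4/3 * k - 1) ≤ k * f (4/3) := by
      rcases eq_or_lt_of_le hk34 with h | h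
      · rw [h]
        have : Real.exp (4/3 * (3/4) - 1) = 1 := by norm_num
        rw [this]
        have := hge (4/3)
        linarith
      · have h43 : 4/3 < 1/k := by
          rw [lt_div_iff₀ hk0]; linarith
        have h1 := hlarge (1/k) h43
        have h2 := hge (1/k)
        have h1k : 0 < 1/k := by positivity
        have h3 : Real.log (1/k) ≤ Real.log (f (1/k)) := Real.log_le_log h1k h2
        have h4 : Real.log (1/k) = - Real.log k := by rw [one_div, Real.log_inv]
        have h5 : (1/k - 4/3) * k = 1 - 4/3 * k := by field_simp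
        rw [h5] at h1
        have h6 : 4/3 * k - 1 ≤ Real.log (k * f (4/3)) := by
          rw [Real.log_mul hk0.ne' hpos43.ne']; linarith
        calc Real.exp (4/3 * k - 1) ≤ Real.exp (Real.log (k * f (4/3))) := Real.exp_le_exp.2 h6
          _ = _ := Real.exp_log (by positivity)
    have hsq : (2/3 * (1 + k)) ^ 2 ≤ Real.exp (4/3 * k - 2/3) := by
      have h1 := Real.add_one_le_exp ((2 * k - 1) / 3)
      have h2 : Real.exp (4/3 * k - 2/3) = (Real.exp ((2 * k - 1) / 3)) ^ 2 := by
        rw [← Real.exp_nat_mul]; congr 1; push_cast; ring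
      rw [h2]
      apply pow_le_pow_left₀ (by positivity)
      linarith
    have e1 : Real.exp (4/3 * k - 1) = Real.exp (-(1/3)) * Real.exp (4/3 * k - 2/3) := by
      rw [← Real.exp_add]; congr 1; ring
    have h1k : 0 < (1 + k) ^ 2 := by positivity
    have e2 : f (4/3) * (k / (1 + k) ^ 2) = (k * f (4/3)) / (1 + k) ^ 2 := by ring
    rw [e2, le_div_iff₀ h1k]
    refine le_trans ?_ hexp
    rw [e1]
    have := mul_le_mul_of_nonneg_left hsq (Real.exp_pos (-(1/3))).le
    nlinarith
  · -- k in (3/4, log 4]
    have hklog : k ≤ Real.log 4 := by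
      have h1 := le_of_abs_le (good.lip (4/3) (1/3))
      have h2 : |(4:ℝ)/3 - 1/3| = 1 := by norm_num
      rw [h2] at h1
      have h3 := hge (1/3)
      have h4 : f (4/3) ≤ 4 * f (1/3) := by linarith
      have h5 := Real.log_le_log hpos43 h4
      rw [Real.log_mul (by norm_num) hpos13.ne'] at h5
      simp only [hk]; linarith
    have hlog4 : Real.log 4 < 1.4 := by
      have : (4:ℝ) = 2 ^ 2 := by norm_num
      rw [this, Real.log_pow]
      have := Real.log_two_lt_d9
      push_cast; linarith
    have hk14 : k < 1.4 := lt_of_le_of_lt hklog hlog4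
    have hf43 := hge (4/3)
    have hexp13 : Real.exp (-(1/3)) ≤ 18/25 := by
      have h1 := Real.add_one_le_exp ((1:ℝ)/3)
      have h2 : (25:ℝ)/18 ≤ Real.exp (1/3) := by
        have := Real.quadratic_le_exp_of_nonneg (x := 1/3) (by norm_num)
        norm_num at this ⊢
        linarith
      rw [Real.exp_neg]
      rw [inv_le_comm₀ (Real.exp_pos _) (by norm_num)]
      norm_num
      norm_num at h2
      exact h2
    have h1k : 0 < (1 + k) ^ 2 := by positivity
    have hkey : 8/25 * (1 + k) ^ 2 ≤ 4/3 * k := by nlinarith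
    calc 4 / 9 * Real.exp (-(1/3)) ≤ 8/25 := by linarith
      _ ≤ 4/3 * (k / (1 + k) ^ 2) := by
        rw [← mul_div_assoc, le_div_iff₀ h1k]; exact hkey
      _ ≤ f (4/3) * (k / (1 + k) ^ 2) := by
        apply mul_le_mul_of_nonneg_right hf43 (by positivity)

/-- first conjunct of S0423 -/
theorem part1 (N : ℕ) (a : Fin N → ℝ) (ha : ∑ i, a i = 0) :
      Real.exp (4 / 3) / (4 / 3) *
          ∫ x in Set.pi Set.univ (fun _ : Fin N => Set.Ioi (0 : ℝ)),
            Crest.AlgGeometry.truncExpWeight (4 / 3 + ∑ i, a i * x i) * Real.exp (-∑ i, x i)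
        ≤ 3 / 4 * Real.exp (4 / 3) - Real.exp 1 / 3 := by
  rw [integral_orthant N (fun x => truncExpWeight (4 / 3 + ∑ i, a i * x i))]
  have hb : ∀ y, |truncExpWeight y| ≤ 1 := by
    intro y
    unfold truncExpWeight
    split_ifs with h
    · simp
    · push Not at h
      have h1 := Real.add_one_le_exp y
      have h2 : (1 + y) * Real.exp (-y) ≤ 1 := by
        rw [Real.exp_neg, ← div_eq_mul_inv, div_le_one (Real.exp_pos _)]; linarith
      rw [abs_of_nonneg (by positivity)]
      exact h2
  have hint : Integrable (fun x : Fin N → ℝ => truncExpWeight (4 / 3 + ∑ i, a i * x i))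
      (Measure.pi (fun _ : Fin N => nu)) := by
    refine (integrable_const (1:ℝ)).mono' ?_ (Eventually.of_forall fun x => hb _)
    exact (measurable_trunc.comp (by fun_prop)).aestronglyMeasurable
  have h1 := one_sub_E N a
  rw [integral_sub (integrable_const _) hint] at h1
  simp only [integral_const, probReal_univ, smul_eq_mul, one_mul] at h1
  have h2 := main_lower N a ha
  rw [← h1] at h2
  have h3 : ∫ x : Fin N → ℝ, truncExpWeight (4 / 3 + ∑ i, a i * x i)
        ∂(Measure.pi (fun _ : Fin N => nu)) ≤ 1 - 4 / 9 * Real.exp (-(1/3)) := by linarith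
  have h4 : Real.exp (4/3) * Real.exp (-(1/3)) = Real.exp 1 := by
    rw [← Real.exp_add]; norm_num
  have h5 := mul_le_mul_of_nonneg_left h3 (by positivity : 0 ≤ Real.exp (4 / 3) / (4 / 3))
  refine h5.trans (le_of_eq ?_)
  rw [← h4]; ring

end Crest.Agent.R280
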